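import Vale.Agent.P235.H141.CX.Defs
import Vale.Agent.P235.H141.Star.Piece
import Vale.Agent.P235.K5.H12.Fin

set_option autoImplicit false
set_option linter.all false

/-!
# P235, line CX: [CX4] from the cut metric to the theorem
-/

namespace Vale.Agent.P235.H141.CX.H516

open Finset Vale.Agent.P235 Vale.Agent.P235.K5 Vale.Agent.P235.K5.H12

/-- marginals of a product law -/
theorem marg {n : ℕ} {κ : Fin n → Type} [∀ t, Fintype (κ t)] (q : ∀ t, κ t → ℝ)
    (h1 : ∀ t, ∑ j, q t j = 1) (s : Fin n) (h : κ s → ℝ) :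
    ∑ k : (∀ t, κ t), (∏ t, q t (k t)) * h (k s) = ∑ j, q s j * h j := by
  classical
  let F : ∀ t, κ t → ℝ := fun t j => q t j * (if e : t = s then h (e ▸ j) else 1)
  have hF : ∀ k : (∀ t, κ t), (∏ t, q t (k t)) * h (k s) = ∏ t, F t (k t) := by
    intro k
    have h2 : ∏ t, F t (k t) =
        (∏ t, q t (k t)) * ∏ t, (if e : t = s then h (e ▸ k t) else 1) :=
      Finset.prod_mul_distrib
    rw [h2]
    congr 1
    rw [Finset.prod_eq_single s]
    · simp
    · intro t _ ht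
      simp [ht]
    · intro hs
      exact absurd (Finset.mem_univ s) hs
  rw [Finset.sum_congr rfl fun k _ => hF k]
  have e := (Finset.prod_univ_sum (fun t => (Finset.univ : Finset (κ t))) F).symm
  rw [Fintype.piFinset_univ] at e
  rw [e, Finset.prod_eq_single s]
  · simp [F]
  · intro t _ ht
    simp [F, ht, h1]
  · intro hs
    exact absurd (Finset.mem_univ s) hs

theorem marg1 {n : ℕ} {κ : Fin n → Type} [∀ t, Fintype (κ t)] (q : ∀ t, κ t → ℝ)
    (h1 : ∀ t, ∑ j, q t j = 1) : ∑ k : (∀ t, κ t), ∏ t, q t (k t) = 1 := by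
  classical
  have e := (Finset.prod_univ_sum (fun t => (Finset.univ : Finset (κ t))) q).symm
  rw [Fintype.piFinset_univ] at e
  rw [e]
  exact Finset.prod_eq_one fun t _ => h1 t

theorem nn {V : Type} {d : V → V → ℝ} (hd : IsMet d) (x y : V) : 0 ≤ d x y := by
  rcases eq_or_ne x y with e | e
  · rw [e, hd.self]
  · exact (hd.pos x y e).le

theorem conn {V : Type} [Nonempty V] {G : SimpleGraph V} {ρ : V → V → ℝ} (hρ : IsMet ρ)
    (hG : Gen G ρ) : G.Connected := by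
  classical
  rw [SimpleGraph.connected_iff]
  refine ⟨fun x y => ?_, inferInstance⟩
  by_contra hxy
  have h := hG (fun v => if G.Reachable x v then 0 else ρ x y + 1) (by
    intro u v huv
    have e : G.Reachable x u ↔ G.Reachable x v :=
      ⟨fun h => h.trans huv.reachable, fun h => h.trans huv.symm.reachable⟩
    by_cases hu : G.Reachable x u
    · simp only [if_pos hu, if_pos (e.1 hu), sub_self, abs_zero]
      exact nn hρ u v
    · have hv : ¬ G.Reachable x v := fun hc => hu (e.2 hc)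
      simp only [if_neg hu, if_neg hv, sub_self, abs_zero]
      exact nn hρ u v) x y
  have h0 : G.Reachable x x := SimpleGraph.Reachable.refl x
  simp only [if_pos h0, if_neg hxy, zero_sub, abs_neg] at h
  have h2 := le_abs_self (ρ x y + 1)
  linarith

/-- the random functions of one bag -/
theorem fam_bag {V : Type} [Finite V] {H : SimpleGraph V} {m k : ℕ} {B : ℕ → Set V}
    (h : Glued k H m B) {d : V → V → ℝ} (hd : IsMet d) (hG : Gen H d) {C : ℝ} (hC : 1 ≤ C)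
    {t : ℕ} (ht : t < m) (hne : (B t).Nonempty) (hDi : DistortionLE (H.induce (B t)) C)
    (r : V → ℝ) (hr0 : ∀ x, 0 ≤ r x) (hr : ∀ x y, |r x - r y| ≤ d x y) :
    ∃ (κ : Type) (_ : Fintype κ) (q : κ → ℝ) (g : κ → V → ℝ), (∀ j, 0 ≤ q j) ∧ ∑ j, q j = 1 ∧
      (∀ j, ∀ x ∈ B t, |g j x| ≤ r x) ∧
      (∀ x ∈ B t, ∀ y ∈ B t,
        min (d x y) (r x + r y) / 48 - |r x - r y| / 3 ≤ ∑ j, q j * |g j x - g j y|) ∧
      ∀ x ∈ B t, ∀ y ∈ B t, ∑ j, q j * |g j x - g j y| ≤ (2 * C + 2) * d x y := by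
  classical
  have hdB : IsMet (fun x y : B t => d x y) :=
    ⟨fun x => hd.self _, fun x y hxy => hd.pos _ _ (fun e => hxy (Subtype.ext e)),
      fun x y => hd.symm _ _, fun x y z => hd.tri _ _ _⟩
  have hGB := h.gen_bag hd hG ht
  haveI : Nonempty (B t) := hne.to_subtype
  have hconn : (H.induce (B t)).Connected := conn hdB hGB
  obtain ⟨f, hf, h1, h2⟩ := H141.Star.emb_of_gen hDi hconn hdB hGB
  obtain ⟨κ, hκ, q, g, a1, a2, a3, a4, a5⟩ := H141.Star.fam_all hC hdB hf h1 h2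
    (fun x : B t => r x) (fun x => hr0 x) (fun x y => hr x y)
  refine ⟨κ, hκ, q, fun j x => if hx : x ∈ B t then g j ⟨x, hx⟩ else 0, a1, a2, ?_, ?_, ?_⟩
  · intro j x hx
    simp only [dif_pos hx]
    exact a3 j ⟨x, hx⟩
  · intro x hx y hy
    simp only [dif_pos hx, dif_pos hy]
    exact a4 ⟨x, hx⟩ ⟨y, hy⟩
  · intro x hx y hy
    simp only [dif_pos hx, dif_pos hy]
    exact a5 ⟨x, hx⟩ ⟨y, hy⟩

theorem emb {k m : ℕ} {V : Type} [Finite V] {H : SimpleGraph V} {B : ℕ → Set V}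
    (h : Glued k H m B) (T : BTree m B) {d : V → V → ℝ} (hd : IsMet d) (hG : Gen H d)
    (hnew : ∀ t < m, ∃ v ∈ B t, v ∉ Bef B t) {C c0 C2 : ℝ} (hC : 1 ≤ C) (hc0 : 0 < c0)
    (hc01 : c0 ≤ 1) (hC2 : 0 < C2) (hDi : ∀ t < m, DistortionLE (H.induce (B t)) C)
    (hMet : ∀ φ : ℕ → V → ℝ, (∀ t < m, ∀ a ∈ Adh B t, φ t a = 0) →
        (∀ t < m, ∀ x ∈ B t, ∀ a ∈ Adh B t, |φ t x| ≤ d x a) →
        ∃ F : V → V → ℝ, IsL1 F ∧
          (∀ t < m, ∀ x ∈ B t, ∀ y ∈ B t, F x y ≤ d x y + |φ t x - φ t y|) ∧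
          (∀ t < m, ∀ x ∈ B t, ∀ y ∈ B t, c0 * |φ t x - φ t y| ≤ F x y) ∧
          (∀ t < m, ∀ x ∈ B t, ∀ a ∈ Adh B t, c0 * d x a ≤ F x a) ∧
          ∀ t < m, 0 < t → ∀ x ∈ h.Sub T t, ∀ y ∉ h.Sub T t, ∀ r : ℝ, 0 < r →
            (∀ a ∈ Adh B t, r ≤ d x a) → r ≤ C2 * F x y) :
    R2.H598.Emb d (min (c0 ^ 2 / 768 / (2 * C + 5) / 2)
      (c0 ^ 2 / 768 / (2 * C + 5) / (8 * (C2 * (2 * C + 5)))) / 2) := by
  classical
  -- the roots
  have hroot : ∀ t, ∃ S : Set V, t < m → (S.Nonempty ∧ S ⊆ B t ∧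
      (((Adh B t).Nonempty ∧ S = Adh B t) ∨ (Adh B t = ∅ ∧ ∃ p, S = {p}))) := by
    intro t
    by_cases ht : t < m
    · by_cases hA : (Adh B t).Nonempty
      · exact ⟨Adh B t, fun _ => ⟨hA, fun v hv => hv.1, Or.inl ⟨hA, rfl⟩⟩⟩
      · obtain ⟨p, hp, _⟩ := hnew t ht
        exact ⟨{p}, fun _ => ⟨⟨p, rfl⟩, by simpa using hp,
          Or.inr ⟨Set.not_nonempty_iff_eq_empty.1 hA, p, rfl⟩⟩⟩
    · exact ⟨∅, fun h => absurd h ht⟩
  choose S hS using hroot
  obtain ⟨r, hr⟩ : ∃ r : ℕ → V → ℝ, ∀ t x, r t x = Phi d (fun _ => 0) (S t) x :=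
    ⟨_, fun _ _ => rfl⟩
  have hr_ex : ∀ t < m, ∀ x, ∃ a ∈ S t, r t x = d a x := by
    intro t ht x
    obtain ⟨a, ha, h1⟩ := exists_Phi (d := d) (f := fun _ => 0) (hS t ht).1 x
    refine ⟨a, ha, ?_⟩
    rw [hr, h1, zero_add]
  have hr_le : ∀ t, ∀ a ∈ S t, ∀ x, r t x ≤ d a x := by
    intro t a ha x
    have := Phi_le (d := d) (f := fun _ => 0) ha x
    rw [hr]
    linarith
  have hr_lip : ∀ t x y, |r t x - r t y| ≤ d x y := by
    intro t x y
    rw [hr, hr]
    exact Phi_lip hd x y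
  have hr0 : ∀ t < m, ∀ x, 0 ≤ r t x := by
    intro t ht x
    obtain ⟨a, ha, h1⟩ := hr_ex t ht x
    rw [h1]
    exact nn hd a x
  have hrS : ∀ t < m, ∀ a ∈ S t, r t a = 0 := by
    intro t ht a ha
    have h1 := hr_le t a ha a
    rw [hd.self] at h1
    exact le_antisymm h1 (hr0 t ht a)
  have hAS : ∀ t < m, ∀ a ∈ Adh B t, a ∈ S t := by
    intro t ht a ha
    rcases (hS t ht).2.2 with ⟨_, h1⟩ | ⟨h1, _⟩
    · rw [h1]
      exact ha
    · rw [h1] at ha
      exact absurd ha (Set.notMem_empty a)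
  -- the metric of the distances
  obtain ⟨F1, g1, g2, g3, g4, g5⟩ := hMet r (fun t ht a ha => hrS t ht a (hAS t ht a ha))
    (fun t ht x hx a ha => by
      rw [abs_of_nonneg (hr0 t ht x), hd.symm x a]
      exact hr_le t a (hAS t ht a ha) x)
  -- the families
  have hfam : ∀ t : Fin m, ∃ (κ : Type) (_ : Fintype κ) (q : κ → ℝ) (g : κ → V → ℝ),
      (∀ j, 0 ≤ q j) ∧ ∑ j, q j = 1 ∧ (∀ j, ∀ x ∈ B t, |g j x| ≤ r t x) ∧
      (∀ x ∈ B t, ∀ y ∈ B t,
        min (d x y) (r t x + r t y) / 48 - |r t x - r t y| / 3 ≤ ∑ j, q j * |g j x - g j y|) ∧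
      ∀ x ∈ B t, ∀ y ∈ B t, ∑ j, q j * |g j x - g j y| ≤ (2 * C + 2) * d x y := by
    intro t
    obtain ⟨p, hp, _⟩ := hnew t t.2
    exact fam_bag h hd hG hC t.2 ⟨p, hp⟩ (hDi t t.2) (r t) (hr0 t t.2) (hr_lip t)
  choose κ hκ q g q0 q1 ga glo gup using hfam
  have hF : ∀ kk : (∀ t, κ t), ∃ F : V → V → ℝ, IsL1 F ∧
      (∀ t : Fin m, ∀ x ∈ B t, ∀ y ∈ B t, F x y ≤ d x y + |g t (kk t) x - g t (kk t) y|) ∧
      (∀ t : Fin m, ∀ x ∈ B t, ∀ y ∈ B t, c0 * |g t (kk t) x - g t (kk t) y| ≤ F x y) := by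
    intro kk
    obtain ⟨F, a1, a2, a3, -, -⟩ := hMet
      (fun t x => if ht : t < m then g ⟨t, ht⟩ (kk ⟨t, ht⟩) x else 0)
      (fun t ht a ha => by
        simp only [dif_pos ht]
        have h1 := ga ⟨t, ht⟩ (kk ⟨t, ht⟩) a ha.1
        rw [hrS t ht a (hAS t ht a ha)] at h1
        exact abs_nonpos_iff.1 h1)
      (fun t ht x hx a ha => by
        simp only [dif_pos ht]
        refine (ga ⟨t, ht⟩ (kk ⟨t, ht⟩) x hx).trans ?_
        rw [hd.symm x a]
        exact hr_le t a (hAS t ht a ha) x)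
    refine ⟨F, a1, ?_, ?_⟩
    · intro t x hx y hy
      have h1 := a2 t t.2 x hx y hy
      simpa only [dif_pos t.2, Fin.eta] using h1
    · intro t x hx y hy
      have h1 := a3 t t.2 x hx y hy
      simpa only [dif_pos t.2, Fin.eta] using h1
  choose F f1 f2 f3 using hF
  obtain ⟨P, hP⟩ : ∃ P : (∀ t, κ t) → ℝ, ∀ kk, P kk = ∏ t, q t (kk t) := ⟨_, fun _ => rfl⟩
  have P0 : ∀ kk, 0 ≤ P kk := by
    intro kk
    rw [hP]
    exact Finset.prod_nonneg fun t _ => q0 t (kk t)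
  have P1 : ∑ kk, P kk = 1 := by
    rw [Finset.sum_congr rfl fun kk _ => hP kk]
    exact marg1 q q1
  have Pm : ∀ (t : Fin m) (x y : V),
      ∑ kk, P kk * |g t (kk t) x - g t (kk t) y| = ∑ j, q t j * |g t j x - g t j y| := by
    intro t x y
    rw [Finset.sum_congr rfl fun kk _ => by rw [hP kk]]
    exact marg q q1 t fun j => |g t j x - g t j y|
  obtain ⟨F0, hF0⟩ : ∃ F0 : V → V → ℝ, ∀ x y, F0 x y = ∑ kk, P kk * F kk x y :=
    ⟨_, fun _ _ => rfl⟩
  have F0L : IsL1 F0 := by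
    refine IsL1.congr (IsL1.sum Finset.univ (fun kk x y => P kk * F kk x y)
      fun kk _ => (f1 kk).smul (P0 kk)) ?_
    intro x y
    rw [hF0]
  have F0up : ∀ t : Fin m, ∀ x ∈ B t, ∀ y ∈ B t, F0 x y ≤ (2 * C + 3) * d x y := by
    intro t x hx y hy
    calc F0 x y = ∑ kk, P kk * F kk x y := hF0 x y
      _ ≤ ∑ kk, P kk * (d x y + |g t (kk t) x - g t (kk t) y|) :=
        Finset.sum_le_sum fun kk _ => mul_le_mul_of_nonneg_left (f2 kk t x hx y hy) (P0 kk)
      _ = (∑ kk, P kk) * d x y + ∑ kk, P kk * |g t (kk t) x - g t (kk t) y| := by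
        rw [Finset.sum_mul, ← Finset.sum_add_distrib]
        exact Finset.sum_congr rfl fun kk _ => by ring
      _ = d x y + ∑ j, q t j * |g t j x - g t j y| := by
        rw [P1, one_mul, Pm]
      _ ≤ d x y + (2 * C + 2) * d x y := by
        have := gup t x hx y hy
        linarith
      _ = (2 * C + 3) * d x y := by ring
  have F0lo : ∀ t : Fin m, ∀ x ∈ B t, ∀ y ∈ B t,
      c0 * (min (d x y) (r t x + r t y) / 48 - |r t x - r t y| / 3) ≤ F0 x y := by
    intro t x hx y hy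
    calc c0 * (min (d x y) (r t x + r t y) / 48 - |r t x - r t y| / 3)
        ≤ c0 * ∑ j, q t j * |g t j x - g t j y| :=
          mul_le_mul_of_nonneg_left (glo t x hx y hy) hc0.le
      _ = ∑ kk, P kk * (c0 * |g t (kk t) x - g t (kk t) y|) := by
        rw [← Pm, Finset.mul_sum]
        exact Finset.sum_congr rfl fun kk _ => by ring
      _ ≤ ∑ kk, P kk * F kk x y :=
        Finset.sum_le_sum fun kk _ => mul_le_mul_of_nonneg_left (f3 kk t x hx y hy) (P0 kk)
      _ = F0 x y := (hF0 x y).symm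
  have hK : 0 < 2 * C + 5 := by linarith
  -- the bags
  have hlow : ∀ t < m, ∀ x ∈ B t, ∀ y ∈ B t, c0 ^ 2 / 768 * d x y ≤ F0 x y + F1 x y := by
    intro t ht x hx y hy
    have e1 := F0lo ⟨t, ht⟩ x hx y hy
    have e2 := g3 t ht x hx y hy
    have hD := nn hd x y
    have ha := hr0 t ht x
    have hb := hr0 t ht y
    have n0 := F0L.nonneg x y
    have n1 := g1.nonneg x y
    simp only at e1
    by_cases hcase : c0 / 16 * d x y ≤ r t x + r t y
    · have h1 : c0 / 16 * d x y ≤ min (d x y) (r t x + r t y) := by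
        refine le_min ?_ hcase
        have : c0 / 16 * d x y ≤ 1 * d x y :=
          mul_le_mul_of_nonneg_right (by linarith) hD
        linarith
      have h2 : c0 * (c0 / 16 * d x y) ≤ c0 * min (d x y) (r t x + r t y) :=
        mul_le_mul_of_nonneg_left h1 hc0.le
      have h3 : 0 ≤ c0 * |r t x - r t y| := mul_nonneg hc0.le (abs_nonneg _)
      have h4 : c0 * (min (d x y) (r t x + r t y) / 48 - |r t x - r t y| / 3) =
          c0 * min (d x y) (r t x + r t y) / 48 - c0 * |r t x - r t y| / 3 := by ring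
      have h5 : c0 ^ 2 / 768 * d x y = c0 * (c0 / 16 * d x y) / 48 := by ring
      rw [h4] at e1
      rw [h5]
      linarith
    · push Not at hcase
      rcases (hS t ht).2.2 with ⟨_, h1⟩ | ⟨_, p, h1⟩
      · obtain ⟨a', ha', h2⟩ := hr_ex t ht y
        have ha'' : a' ∈ Adh B t := by
          rw [← h1]
          exact ha'
        have h3 := g4 t ht x hx a' ha''
        have h4 := g2 t ht y hy a' ha''.1
        rw [hrS t ht a' ha', sub_zero, abs_of_nonneg hb, hd.symm y a', ← h2] at h4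
        have h5 := g1.tri x y a'
        have h6 := hd.tri x a' y
        rw [← h2] at h6
        have h7 : c0 * (d x y - r t y) ≤ c0 * d x a' :=
          mul_le_mul_of_nonneg_left (by linarith) hc0.le
        have h8 : c0 * r t y ≤ 1 * r t y := mul_le_mul_of_nonneg_right hc01 hb
        have h9 : c0 * (d x y - r t y) = c0 * d x y - c0 * r t y := by ring
        have h10 : c0 ^ 2 / 768 * d x y ≤ c0 / 768 * d x y := by
          refine mul_le_mul_of_nonneg_right ?_ hD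
          have : c0 * c0 ≤ c0 * 1 := mul_le_mul_of_nonneg_left hc01 hc0.le
          have e : c0 ^ 2 / 768 = c0 * c0 / 768 := by ring
          rw [e]
          linarith
        have h11 : 0 ≤ c0 * d x y := mul_nonneg hc0.le hD
        have h12 : c0 / 768 * d x y = c0 * d x y / 768 := by ring
        have h13 : c0 / 16 * d x y = c0 * d x y / 16 := by ring
        rw [h13] at hcase
        rw [h12] at h10
        rw [h9] at h7
        linarith
      · exfalso
        have hp : p ∈ S t := by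
          rw [h1]
          rfl
        obtain ⟨a1, ha1, h2⟩ := hr_ex t ht x
        obtain ⟨a2, ha2, h3⟩ := hr_ex t ht y
        have e1' : a1 = p := by
          rw [h1] at ha1
          exact ha1
        have e2' : a2 = p := by
          rw [h1] at ha2
          exact ha2
        rw [e1'] at h2
        rw [e2'] at h3
        have h4 := hd.tri x p y
        rw [hd.symm x p, ← h2, ← h3] at h4
        have h5 : c0 / 16 * d x y ≤ 1 * d x y :=
          mul_le_mul_of_nonneg_right (by linarith) hD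
        linarith
  have hup : ∀ t < m, ∀ x ∈ B t, ∀ y ∈ B t, F0 x y + F1 x y ≤ (2 * C + 5) * d x y := by
    intro t ht x hx y hy
    have e1 := F0up ⟨t, ht⟩ x hx y hy
    have e2 := g2 t ht x hx y hy
    have e3 := hr_lip t x y
    have e4 : (2 * C + 5) * d x y = (2 * C + 3) * d x y + 2 * d x y := by ring
    rw [e4]
    linarith
  obtain ⟨A, hA⟩ : ∃ A : V → V → ℝ, ∀ x y, A x y = 1 / (2 * C + 5) * (F0 x y + F1 x y) :=
    ⟨_, fun _ _ => rfl⟩
  have hAL : IsL1 A := by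
    refine IsL1.congr ((F0L.add g1).smul (by positivity : (0 : ℝ) ≤ 1 / (2 * C + 5))) ?_
    intro x y
    rw [hA]
  have hAK : ∀ x y, (2 * C + 5) * A x y = F0 x y + F1 x y := by
    intro x y
    rw [hA]
    field_simp
  have hAup : ∀ t < m, ∀ x ∈ B t, ∀ y ∈ B t, A x y ≤ d x y := by
    intro t ht x hx y hy
    have h1 := hup t ht x hx y hy
    rw [← hAK] at h1
    exact le_of_mul_le_mul_left h1 hK
  have hA1 : ∀ x y, A x y ≤ d x y := by
    refine hAL.le_of_gen hG fun u v huv => ?_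
    rcases le_total (h.it u) (h.it v) with h1 | h1
    · exact hAup _ (h.it_lt v) u (h.edge huv h1) v (h.it_mem v)
    · exact hAup _ (h.it_lt u) u (h.it_mem u) v (h.edge huv.symm h1)
  have hc : 0 < c0 ^ 2 / 768 / (2 * C + 5) := by positivity
  have hc1 : c0 ^ 2 / 768 / (2 * C + 5) ≤ 1 := by
    rw [div_le_one hK]
    have : c0 ^ 2 ≤ 1 := pow_le_one₀ hc0.le hc01
    linarith
  have hA2 : ∀ t < m, ∀ x ∈ B t, ∀ y ∈ B t, c0 ^ 2 / 768 / (2 * C + 5) * d x y ≤ A x y := by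
    intro t ht x hx y hy
    have h1 := hlow t ht x hx y hy
    rw [← hAK] at h1
    have e : c0 ^ 2 / 768 / (2 * C + 5) * d x y = (c0 ^ 2 / 768 * d x y) / (2 * C + 5) := by ring
    rw [e, div_le_iff₀ hK]
    linarith
  have hN2 : ∀ t < m, 0 < t → ∀ x ∈ h.Sub T t, ∀ y ∉ h.Sub T t, ∀ r : ℝ, 0 < r →
      (∀ a ∈ Adh B t, r ≤ d x a) → r ≤ C2 * (2 * C + 5) * A x y := by
    intro t ht h0 x hx y hy r' hr' hra
    have h1 := g5 t ht h0 x hx y hy r' hr' hra
    have e : C2 * (2 * C + 5) * A x y = C2 * (F0 x y + F1 x y) := by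
      rw [mul_assoc, hAK]
    rw [e]
    have h2 : C2 * F1 x y ≤ C2 * (F0 x y + F1 x y) :=
      mul_le_mul_of_nonneg_left (by linarith [F0L.nonneg x y]) hC2.le
    linarith
  have hcr := cross h T hd hc hc1 (mul_pos hC2 hK) hAL hAL hA1 hA2 hN2
  refine ⟨A, hAL, fun x y => ?_, hA1⟩
  have h1 := hcr x y
  linarith

/-- **[CX4]** -/
theorem cx4 (hM : MetStmt) : CXStmt := by
  classical
  intro C k hC
  obtain ⟨c0, C2, hc0, hc01, hC2, hMet⟩ := hM (k + 1) (by omega)
  have hK : 0 < 2 * C + 5 := by linarith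
  obtain ⟨c', hc'⟩ : ∃ c', c' = min (c0 ^ 2 / 768 / (2 * C + 5) / 2)
      (c0 ^ 2 / 768 / (2 * C + 5) / (8 * (C2 * (2 * C + 5)))) / 2 := ⟨_, rfl⟩
  have hc'0 : 0 < c' := by
    rw [hc']
    have : 0 < min (c0 ^ 2 / 768 / (2 * C + 5) / 2)
      (c0 ^ 2 / 768 / (2 * C + 5) / (8 * (C2 * (2 * C + 5)))) :=
      lt_min (by positivity) (by positivity)
    linarith
  have hc'1 : c' ≤ 1 := by
    rw [hc']
    have h1 : min (c0 ^ 2 / 768 / (2 * C + 5) / 2)
      (c0 ^ 2 / 768 / (2 * C + 5) / (8 * (C2 * (2 * C + 5)))) ≤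
        c0 ^ 2 / 768 / (2 * C + 5) / 2 := min_le_left _ _
    have h2 : c0 ^ 2 / 768 / (2 * C + 5) ≤ 1 := by
      rw [div_le_one hK]
      have : c0 ^ 2 ≤ 1 := pow_le_one₀ hc0.le hc01
      linarith
    linarith
  refine ⟨1 / c', (one_le_div hc'0).2 hc'1, ?_⟩
  intro V _ G H n B hle hconn hg hnew hDi hpar ℓ hℓ
  have h : Glued (k + 1) H n B := ⟨hg.cover, fun t ht => (hg.card t ht).trans (Nat.le_succ k),
    hg.clique, hg.sep⟩
  have key : ∀ u, ∃ p, (0 < u → u < n → p < u ∧ Adh B u ⊆ B p ∧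
      (Adh B u \ Adh B p).Subsingleton) ∧ p ≤ u := by
    intro u
    by_cases hu : 0 < u ∧ u < n
    · obtain ⟨p, h1, h2, h3⟩ := hpar u hu.2 hu.1
      exact ⟨p, fun _ _ => ⟨h1, h2, h3⟩, h1.le⟩
    · exact ⟨0, fun h1 h2 => absurd ⟨h1, h2⟩ hu, Nat.zero_le _⟩
  choose p hp using key
  let T : BTree n B := ⟨p, Nat.le_zero.1 (hp 0).2, fun t => (hp t).2,
    fun t h1 h2 => ((hp t).1 h1 h2).1, fun t h1 h2 => ((hp t).1 h1 h2).2.1⟩
  have hd := pathDist_isMet hconn hℓ
  have hgenG : Gen G (pathDist G ℓ) := by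
    intro f hf x y
    exact pathDist_gen hconn (fun u v huv => (hf u v huv).trans (pathDist_adj hℓ huv)) x y
  have hgen : Gen H (pathDist G ℓ) := fun f hf => hgenG f (fun u v huv => hf u v (hle huv))
  have hE := emb h T hd hgen hnew hC hc0 hc01 hC2 hDi
    (fun φ h1 h2 => hMet V H n B h T hnew (fun t ht h0 => ((hp t).1 h0 ht).2.2) _ hd hgen φ h1 h2)
  rw [← hc'] at hE
  exact hE.embedsL1 hc'0

end Vale.Agent.P235.H141.CX.H516
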